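/-!
# Row 30 (S0040): proof plan

State `(G, τ)`, `p = exp (-τ)`, `μ = n p²`, step `G ↦ rem G T` (`T` uniform triangle),
`τ ↦ τ + x`, `x = xs G τ = μ / Q G`; an edge `e` dies with probability `cod e / Q = x (1 + r_e)`.

**Main phase** (until `μ = mu0 = n^(1/400)`).  `stop` (optional stopping) applied to one
supermartingale `V = η + (n+1) (Vem + Vphi) + (mu0+1)/Xi0 · Xi`.
* `Wup/Wlo` (EMStep, VEm): exponential supermartingales for the number of edges in a set of
  pairs: degrees and expander mixing inside links.
* `Wphi` (DriftE, DriftS, Lyap, BL, Moment, PhiStep, VPhi): `e^{-qτ} Φ`, `Φ = ∑ r^q + κ n p ∑ s^q`,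
  `s` = star averages of `r`; drift of `r` is `-x · Bop r`, `Bop a (u,v) = s_u + s_v + E_u(v) + E_v(u)`
  and `E` is small in `ℓ^q` by expander mixing (BL).  This gives `|r| ≤ rho`.
* `Wsub` (SubStep, FreshCard, BadCount, VXi): a fixed edge set survives with probability
  `≲ p^{|F|}`; hence few overdense structures (`Sparse`).

**Final stage** (FinalStage, FinalAsym).  The process is the greedy process for iid labels
(Greedy); `alive` is the recursion `tb` on the unfolded tree with pulled back labels (Pull);
the stopping set `Rset` (TreeStop) couples it with independent labels (Couple) up to a collision;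
collisions need overdense structures along active chains (Coll, TreePair); with independent
labels the probabilities are `tβ = ∏ uu` (TreeProd) and `uu ≈ exp (-tau)` (UODE, LinODE, Tau);
first and second moment (Moments).
-/
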